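import Vale.Agent.P275LL.Loc

/-! Block HERM: Hermite interpolation and polynomials in a matrix. -/

open scoped Topology
open Set Filter Polynomial

noncomputable section

namespace Vale.Agent.P275HM

open Vale.Agent.P275LL

/-! ### the spectral mapping theorem with multiplicities -/

section
variable {n : Type} [Fintype n] [DecidableEq n] (a : Matrix n n ℂ)

theorem card_ch : a.charpoly.roots.card = Fintype.card n := by
  rw [IsAlgClosed.card_roots_eq_natDegree, Matrix.charpoly_natDegree_eq_dim]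

theorem det_aeval (q : ℂ[X]) : (aeval a q).det = (a.charpoly.roots.map q.eval).prod := by
  induction IsAlgClosed.splits q using Submonoid.closure_induction with
  | mem q h =>
    rcases h with ⟨c, rfl⟩ | ⟨c, rfl⟩
    · simp [Algebra.algebraMap_eq_smul_one, card_ch]
    · have e : aeval a (X + C c) = -(Matrix.scalar n (-c) - a) := by
        rw [neg_sub, map_neg, sub_neg_eq_add, map_add, aeval_X, aeval_C]
        rfl
      have e2 : (fun y => (X + C c).eval y) = fun y => -1 * (-c - y) := funext fun y => by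
        simp [add_comm]
      rw [e, Matrix.det_neg, ← Matrix.eval_charpoly,
        (IsAlgClosed.splits _).eval_eq_prod_roots_of_monic a.charpoly_monic, e2,
        Multiset.prod_map_mul, Multiset.map_const', Multiset.prod_replicate, card_ch]
  | one => simp
  | mul p q _ _ h1 h2 => simp [h1, h2, Multiset.prod_map_mul]

theorem trace_aeval (q : ℂ[X]) : (aeval a q).trace = (a.charpoly.roots.map q.eval).sum := by
  have e : (aeval a q).charpoly = ((a.charpoly.roots.map q.eval).map fun y => X - C y).prod := by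
    refine Polynomial.funext fun t => ?_
    have e : Matrix.scalar n t - aeval a q = aeval a (C t - q) := by
      simp [Matrix.algebraMap_eq_diagonal]
    rw [Matrix.eval_charpoly, e, det_aeval, eval_multiset_prod]
    simp
  rw [Matrix.trace_eq_sum_roots_charpoly, e, roots_multiset_prod_X_sub_C]

end

/-! ### Hermite interpolation -/

/-- `q` is congruent to the constant `f r` at every root `r` of `p`, to the order of the root -/
def Cg (p q : ℂ[X]) (f : ℂ → ℂ) : Prop := ∀ r m, (X - C r) ^ m ∣ p → (X - C r) ^ m ∣ q - C (f r)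

variable {p q q' : ℂ[X]} {f g : ℂ → ℂ}

theorem cg_C (p : ℂ[X]) (c : ℂ) : Cg p (C c) fun _ => c := fun _ _ _ => by simp

theorem Cg.add (h : Cg p q f) (h' : Cg p q' g) : Cg p (q + q') fun y => f y + g y :=
  fun r m e => by
    rw [show q + q' - C (f r + g r) = q - C (f r) + (q' - C (g r)) by rw [C_add]; ring]
    exact (h r m e).add (h' r m e)

theorem Cg.mul (h : Cg p q f) (h' : Cg p q' g) : Cg p (q * q') fun y => f y * g y :=
  fun r m e => by
    rw [show q * q' - C (f r * g r) = (q - C (f r)) * q' + C (f r) * (q' - C (g r)) by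
      rw [C_mul]; ring]
    exact ((h r m e).mul_right _).add ((h' r m e).mul_left _)

theorem Cg.congr (h : Cg p q f) (e : ∀ r, p.IsRoot r → g r = f r) : Cg p q g := fun r m h1 => by
  cases m with
  | zero => simp
  | succ m =>
    rw [e r (dvd_iff_isRoot.1 ((dvd_pow_self _ m.succ_ne_zero).trans h1))]
    exact h r _ h1

theorem Cg.sum {ι : Type} (s : Finset ι) {q : ι → ℂ[X]} {f : ι → ℂ → ℂ}
    (h : ∀ j, Cg p (q j) (f j)) : Cg p (∑ j ∈ s, q j) fun y => ∑ j ∈ s, f j y := fun r m e => by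
  rw [map_sum, ← Finset.sum_sub_distrib]
  exact Finset.dvd_sum fun j _ => h j r m e

theorem Cg.mod (h : Cg p q f) : Cg p (q %ₘ p) f := fun r m e => by
  rw [modByMonic_eq_sub_mul_div, sub_right_comm]
  exact (h r m e).sub (e.mul_right _)

theorem Cg.eval (h : Cg p q f) {r : ℂ} (hr : p.IsRoot r) : q.eval r = f r := by
  have := h r 1 (by simpa using dvd_iff_isRoot.2 hr)
  simpa [dvd_iff_isRoot, sub_eq_zero] using this

theorem Cg.dvd (hp : p.Monic) (h : Cg p q f) (h' : Cg p q' f) : p ∣ q - q' := by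
  rw [prod_mult hp]
  refine Finset.prod_dvd_of_coprime (fun r _ s _ e => (isCoprime_X_sub_C_of_isUnit_sub
    (sub_ne_zero.2 e).isUnit).pow) fun r _ => ?_
  simpa using (h r _ (pow_rootMultiplicity_dvd p r)).sub (h' r _ (pow_rootMultiplicity_dvd p r))

theorem Cg.uniq (hp : p.Monic) (h : Cg p q f) (h' : Cg p q' f) (d : q.degree < p.degree)
    (d' : q'.degree < p.degree) : q = q' :=
  sub_eq_zero.1 (eq_zero_of_dvd_of_degree_lt (h.dvd hp h')
    ((degree_sub_le _ _).trans_lt (max_lt d d')))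

theorem Cg.aeval {B : Type} [Ring B] [Algebra ℂ B] {a : B} (hp : p.Monic) (ha : aeval a p = 0)
    (h : Cg p q f) (h' : Cg p q' f) : aeval a q = aeval a q' := by
  obtain ⟨c, e⟩ := h.dvd hp h'
  rw [← sub_eq_zero, ← map_sub, e, map_mul, ha, zero_mul]

theorem Cg.scale {d : ℂ} (h : Cg (p.scaleRoots d) q f) :
    Cg p (q.comp (C d * X)) fun y => f (d * y) := fun r m e => by
  have h1 := scaleRoots_dvd _ _ (r := d) e
  rw [pow_scaleRoots_of_isReduced, X_sub_C_scaleRoots, mul_comm r] at h1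
  obtain ⟨c, h2⟩ := h _ m h1
  have h3 := congrArg (·.comp (C d * X)) h2
  simp only [sub_comp, C_comp, mul_comp, pow_comp, X_comp, C_mul, ← mul_sub, mul_pow] at h3
  rw [h3]
  exact ((dvd_mul_left _ _).mul_right _)

/-- the idempotents -/
def Ep {ι : Type} [Fintype ι] [DecidableEq ι] (n : ℕ) (y : ι → ℂ) (j : ι) : ℂ[X] :=
  1 - (1 - ∏ k ∈ Finset.univ.erase j, (C (y j - y k)⁻¹ * (X - C (y k))) ^ n) ^ n

theorem cg_Ep {ι : Type} [Fintype ι] [DecidableEq ι] {y : ι → ℂ} (hp : p ≠ 0)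
    (hy : Function.Injective y) (hr : ∀ r, p.IsRoot r → ∃ k, y k = r) (j : ι) :
    Cg p (Ep p.natDegree y j) fun r => if r = y j then 1 else 0 := fun r m e => by
  rcases m.eq_zero_or_pos with rfl | h0
  · simp
  obtain ⟨k, rfl⟩ := hr r (dvd_iff_isRoot.1 ((dvd_pow_self _ h0.ne').trans e))
  refine (pow_dvd_pow _ (show m ≤ p.natDegree by simpa using natDegree_le_of_dvd e hp)).trans ?_
  beta_reduce
  by_cases h : k = j
  · subst h
    rw [if_pos rfl, C_1, Ep, sub_sub_cancel_left, dvd_neg]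
    refine pow_dvd_pow_of_dvd (dvd_iff_isRoot.2 ?_) _
    rw [IsRoot, eval_sub, eval_one, eval_prod, Finset.prod_eq_one, sub_self]
    intro i hi
    simp [sub_ne_zero.2 (hy.ne (Finset.ne_of_mem_erase hi).symm)]
  · rw [if_neg (hy.ne h), C_0, sub_zero, Ep]
    have h1 : ∀ u : ℂ[X], u ∣ 1 - (1 - u) ^ p.natDegree := fun u => by
      simpa using sub_dvd_pow_sub_pow 1 (1 - u) p.natDegree
    refine Dvd.dvd.trans ?_ (h1 _)
    exact (pow_dvd_pow_of_dvd (dvd_mul_left _ _) _).trans (Finset.dvd_prod_of_mem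
      (fun k => (C (y j - y k)⁻¹ * (X - C (y k))) ^ p.natDegree)
      (Finset.mem_erase.2 ⟨h, Finset.mem_univ k⟩))

theorem cg_sum {ι : Type} [Fintype ι] [DecidableEq ι] {y : ι → ℂ} {e : ι → ℂ[X]}
    (hy : Function.Injective y) (hr : ∀ r, p.IsRoot r → ∃ k, y k = r)
    (he : ∀ j, Cg p (e j) fun r => if r = y j then 1 else 0) (f : ℂ → ℂ) :
    Cg p (∑ j, C (f (y j)) * e j) f :=
  (Cg.sum _ fun j => (cg_C p _).mul (he j)).congr fun r h => by
    obtain ⟨k, rfl⟩ := hr r h
    simp [hy.eq_iff]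

/-- the Hermite interpolation polynomial -/
def Hp (p : ℂ[X]) (f : ℂ → ℂ) : ℂ[X] :=
  (∑ r : p.roots.toFinset, C (f r) * Ep p.natDegree Subtype.val r) %ₘ p

theorem Hp_zero (p : ℂ[X]) : Hp p (fun _ => 0) = 0 := by simp [Hp]

theorem cg_Hp (hp : p.Monic) (f : ℂ → ℂ) : Cg p (Hp p f) f := by
  have h : ∀ r, p.IsRoot r → ∃ k : p.roots.toFinset, k.1 = r := fun r h =>
    ⟨⟨r, Multiset.mem_toFinset.2 ((mem_roots hp.ne_zero).2 h)⟩, rfl⟩
  exact (cg_sum Subtype.val_injective h (cg_Ep hp.ne_zero Subtype.val_injective h) f).mod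

theorem deg_Hp (hp : p.Monic) (f : ℂ → ℂ) : (Hp p f).degree < p.degree := degree_modByMonic_lt _ hp

theorem Cg.eq_Hp (hp : p.Monic) (h : Cg p q f) (d : q.degree < p.degree) : Hp p f = q :=
  (cg_Hp hp f).uniq hp h (deg_Hp hp f) d

theorem Hp_congr (hp : p.Monic) (e : ∀ r, p.IsRoot r → g r = f r) : Hp p g = Hp p f :=
  ((cg_Hp hp f).congr e).eq_Hp hp (deg_Hp hp f)

theorem Hp_one (hp : p.Monic) (h0 : 0 < p.natDegree) (f : ℂ → ℂ) :
    Hp p f = 1 + Hp p fun y => f y - 1 :=
  (((cg_C p 1).add (cg_Hp hp _)).congr fun r _ => by ring).eq_Hp hp ((degree_add_le _ _).trans_lt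
    (max_lt (by rw [degree_one]; exact natDegree_pos_iff_degree_pos.1 h0) (deg_Hp hp _)))

theorem Hp_C_mul (hp : p.Monic) (c : ℂ) (f : ℂ → ℂ) : Hp p (fun y => c * f y) = C c * Hp p f :=
  ((cg_C p c).mul (cg_Hp hp f)).eq_Hp hp (by
    rw [← smul_eq_C_mul]
    exact (degree_smul_le _ _).trans_lt (deg_Hp hp f))

theorem Hp_scale (hp : p.Monic) (d : ℂ) (f : ℂ → ℂ) (k : ℕ) :
    (Hp (p.scaleRoots d) f).coeff k * d ^ k = (Hp p fun y => f (d * y)).coeff k := by
  have h1 := (monic_scaleRoots_iff d).2 hp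
  rw [(cg_Hp h1 f).scale.eq_Hp hp, comp_C_mul_X_coeff]
  refine lt_of_le_of_lt ((degree_le_iff_coeff_zero _ _).2 fun m hm => ?_)
    ((deg_Hp h1 f).trans_eq (degree_scaleRoots p))
  rw [comp_C_mul_X_coeff, coeff_eq_zero_of_degree_lt hm, zero_mul]

section
variable {n : Type} [Fintype n] [DecidableEq n] {a : Matrix n n ℂ}

/-- the function `f` of the semisimple part of `a` -/
def Hm (a : Matrix n n ℂ) (f : ℂ → ℂ) : Matrix n n ℂ := aeval a (Hp a.charpoly f)

theorem Cg.hm (h : Cg a.charpoly q f) : Hm a f = Polynomial.aeval a q :=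
  (cg_Hp a.charpoly_monic f).aeval a.charpoly_monic a.aeval_self_charpoly h

theorem Hm_mul (f g : ℂ → ℂ) : Hm a f * Hm a g = Hm a fun y => f y * g y := by
  rw [((cg_Hp a.charpoly_monic f).mul (cg_Hp a.charpoly_monic g)).hm, map_mul, Hm, Hm]

theorem Hm_const (c : ℂ) : Hm a (fun _ => c) = c • (1 : Matrix n n ℂ) := by
  rw [(cg_C _ c).hm, aeval_C, Algebra.algebraMap_eq_smul_one]

theorem det_Hm (f : ℂ → ℂ) : (Hm a f).det = (a.charpoly.roots.map f).prod := by
  rw [Hm, det_aeval]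
  exact congrArg _ (Multiset.map_congr rfl fun r hr =>
    (cg_Hp a.charpoly_monic f).eval (isRoot_of_mem_roots hr))

theorem trace_Hm (f : ℂ → ℂ) : (Hm a f).trace = (a.charpoly.roots.map f).sum := by
  rw [Hm, trace_aeval]
  exact congrArg _ (Multiset.map_congr rfl fun r hr =>
    (cg_Hp a.charpoly_monic f).eval (isRoot_of_mem_roots hr))

theorem Hm_inv (hf : ∀ y, f y ≠ 0) : (Hm a f)⁻¹ = Hm a fun y => (f y)⁻¹ :=
  Matrix.inv_eq_left_inv (by simp [Hm_mul, hf, Hm_const])

end

end Vale.Agent.P275HM
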