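import Vale.Agent.P275HM.Alg
import Vale.Agent.P275DL.Bas

/-! Block HERM: analytic families of polynomials, functions of a holomorphic field of matrices. -/

open scoped Topology ContDiff Matrix.Norms.Operator
open Set Filter Polynomial

noncomputable section

namespace Vale.Agent.P275HM

open Vale.Agent.P275LL Vale.Agent.P275DL Vale.Agent.P281Z.Hm

/-- analytic families of polynomials -/
def An (P : ℂ → ℂ[X]) (w : ℂ) : Prop := ∃ N, Fam P w N

variable {P Q : ℂ → ℂ[X]} {w : ℂ} {n : ℕ}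

theorem an_c (p : ℂ[X]) : An (fun _ => p) w :=
  ⟨_, fun _ => analyticAt_const, .of_forall fun _ => le_rfl⟩

theorem an_C {c : ℂ → ℂ} (h : AnalyticAt ℂ c w) : An (fun x => C (c x)) w :=
  ⟨0, fun k => by
    simp only [coeff_C]
    split_ifs
    exacts [h, analyticAt_const], .of_forall fun _ => (natDegree_C _).le⟩

theorem An.congr (h : An P w) (e : P =ᶠ[𝓝 w] Q) : An Q w :=
  let ⟨N, h1, h2⟩ := h
  ⟨N, fun k => (h1 k).congr (e.mono fun _ e => congrArg (·.coeff k) e),
    by filter_upwards [h2, e] with x a b using b ▸ a⟩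

theorem An.sub (h : An P w) (h' : An Q w) : An (fun x => P x - Q x) w :=
  let ⟨N, h1, h2⟩ := h
  let ⟨N', h1', h2'⟩ := h'
  ⟨max N N', fun k => by simp only [coeff_sub]; exact (h1 k).sub (h1' k), by
    filter_upwards [h2, h2'] with x a b using (natDegree_sub_le _ _).trans (max_le_max a b)⟩

theorem An.mul (h : An P w) (h' : An Q w) : An (fun x => P x * Q x) w :=
  let ⟨N, h1, h2⟩ := h
  let ⟨N', h1', h2'⟩ := h'
  ⟨N + N', fun k => by
    simp only [coeff_mul]
    exact Finset.analyticAt_fun_sum _ fun p _ => (h1 _).mul (h1' _), by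
    filter_upwards [h2, h2'] with x a b using natDegree_mul_le.trans (add_le_add a b)⟩

theorem An.pow (h : An P w) (m : ℕ) : An (fun x => P x ^ m) w := by
  induction m with
  | zero => simpa using an_c 1
  | succ m ih => simpa only [pow_succ] using ih.mul h

theorem an_prod {ι : Type} (s : Finset ι) {P : ι → ℂ → ℂ[X]} (h : ∀ i ∈ s, An (P i) w) :
    An (fun x => ∏ i ∈ s, P i x) w := by
  classical
  induction s using Finset.induction_on with
  | empty => simpa using an_c 1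
  | insert i s hi ih =>
    simpa only [Finset.prod_insert hi] using (h i (Finset.mem_insert_self _ _)).mul
      (ih fun j hj => h j (Finset.mem_insert_of_mem hj))

theorem An.mod (h : An Q w) (hP : An P w) (h0 : 0 < n)
    (hm : ∀ᶠ x in 𝓝 w, (P x).Monic ∧ (P x).natDegree = n) : An (fun x => Q x %ₘ P x) w := by
  have lo : ∀ {Q N}, N < n → Fam Q w N → An (fun x => Q x %ₘ P x) w := fun {Q N} hN h =>
    An.congr ⟨N, h⟩ (by
      filter_upwards [h.2, hm] with x a b
      exact ((modByMonic_eq_self_iff b.1).2 (degree_lt_degree (by omega))).symm)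
  obtain ⟨N, h⟩ := h
  induction N generalizing Q with
  | zero => exact lo h0 h
  | succ N ih =>
    by_cases hN : N + 1 < n
    · exact lo hN h
    obtain ⟨_, h1, -⟩ := An.sub ⟨_, h⟩ ((an_C (h.1 (N + 1))).mul ((an_c (X ^ (N + 1 - n))).mul hP))
    refine (ih ⟨h1, ?_⟩).congr ?_
    · filter_upwards [h.2, hm] with x a b
      have h2 := (monic_X_pow (N + 1 - n)).mul b.1
      have h3 : (X ^ (N + 1 - n) * P x).natDegree = N + 1 := by
        rw [(monic_X_pow _).natDegree_mul b.1, natDegree_X_pow]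
        omega
      refine natDegree_le_iff_coeff_eq_zero.2 fun m hm => ?_
      rw [coeff_sub, coeff_C_mul]
      rcases (Nat.succ_le_of_lt hm).eq_or_lt with rfl | hm
      · have h4 := h2.coeff_natDegree
        rw [h3] at h4
        rw [Nat.succ_eq_add_one, h4, mul_one, sub_self]
      · rw [coeff_eq_zero_of_natDegree_lt (a.trans_lt hm),
          coeff_eq_zero_of_natDegree_lt (h3.trans_lt hm), mul_zero, sub_self]
    · filter_upwards [hm] with x b
      exact modByMonic_eq_of_dvd_sub b.1 (by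
        rw [sub_sub_cancel_left, dvd_neg, ← mul_assoc]
        exact dvd_mul_left _ _)

theorem An.aeval {a : ℂ → Mx (Fin n)} (h : An P w) (ha : AnalyticAt ℂ a w) :
    AnalyticAt ℂ (fun x => aeval (a x) (P x)) w := by
  obtain ⟨N, h1, h2⟩ := h
  refine (Finset.analyticAt_fun_sum (Finset.range (N + 1)) fun k _ =>
    (h1 k).fun_smul (ha.fun_pow k)).congr ?_
  filter_upwards [h2] with x hx using (aeval_eq_sum_range' (Nat.lt_succ_of_le hx) _).symm

section
variable {M : ℕ} {y : Fin M → ℂ → ℂ} {m : Fin M → ℕ}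

theorem br_root (h : Br P w y m) : ∀ᶠ x in 𝓝 w, ∀ r, (P x).IsRoot r ↔ ∃ j, y j x = r :=
  h.2.2.mono fun x e r => by
    simp [e, eval_prod, Finset.prod_eq_zero_iff, sub_eq_zero, @eq_comm _ r, fun j => (h.1 j).2.ne']

theorem br_inj (h : Br P w y m) : ∀ᶠ x in 𝓝 w, Function.Injective fun j => y j x := by
  refine eventually_all.2 fun j => eventually_all.2 fun k => ?_
  by_cases e : j = k
  · exact .of_forall fun _ _ => e
  · filter_upwards [((h.1 j).1.sub (h.1 k).1).continuousAt.eventually_ne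
      (sub_ne_zero.2 (h.2.1.ne e))] with x a b using (a (sub_eq_zero.2 b)).elim

/-- a continuous root is a branch -/
theorem br_eq (h : Br P w y m) {s : ℂ → ℂ} (hs : ContinuousAt s w)
    (hr : ∀ᶠ x in 𝓝 w, (P x).IsRoot (s x)) : ∃ j, s =ᶠ[𝓝 w] y j := by
  obtain ⟨j, e⟩ := ((br_root h).self_of_nhds _).1 hr.self_of_nhds
  have : ∀ᶠ x in 𝓝 w, ∀ k, y k x = s x → k = j := eventually_all.2 fun k => by
    by_cases e1 : k = j
    · exact .of_forall fun _ _ => e1
    · filter_upwards [((h.1 k).1.continuousAt.sub hs).eventually_ne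
        (sub_ne_zero.2 (e ▸ h.2.1.ne e1))] with x a b using (a (sub_eq_zero.2 b)).elim
  refine ⟨j, ?_⟩
  filter_upwards [this, br_root h, hr] with x a b c
  obtain ⟨k, e⟩ := (b _).1 c
  rw [← e, a k e]

theorem br_Hp (h : Br P w y m) (h0 : 0 < n) (hm : ∀ᶠ x in 𝓝 w, (P x).Monic ∧ (P x).natDegree = n) :
    ∃ e : Fin M → ℂ → ℂ[X], (∀ j, An (e j) w) ∧ ∀ᶠ x in 𝓝 w,
      (∀ j, Cg (P x) (e j x) fun r => if r = y j x then 1 else 0) ∧
      ∀ f, Hp (P x) f = ∑ j, C (f (y j x)) * e j x := by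
  have h1 : ∀ j, An (fun x => X - C (y j x)) w := fun j => (an_c X).sub (an_C (h.1 j).1)
  have h2 : An P w := (an_prod _ fun j _ => (h1 j).pow (m j)).congr (h.2.2.mono fun _ => Eq.symm)
  refine ⟨fun j x => Ep n (fun k => y k x) j %ₘ P x, fun j => An.mod ((an_c 1).sub (((an_c 1).sub
    (an_prod _ fun k hk => ((an_C (((h.1 j).1.sub (h.1 k).1).inv (sub_ne_zero.2
      (h.2.1.ne (Finset.ne_of_mem_erase hk).symm)))).mul (h1 k)).pow n)).pow n)) h2 h0 hm, ?_⟩
  filter_upwards [br_root h, br_inj h, hm] with x a b c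
  have h3 := fun j => (cg_Ep c.1.ne_zero b (fun r => (a r).1) j).mod
  rw [c.2] at h3
  refine ⟨h3, fun f => (cg_sum b (fun r => (a r).1) h3 f).eq_Hp c.1 ((degree_sum_le _ _).trans_lt
    ((Finset.sup_lt_iff (bot_lt_iff_ne_bot.2 (degree_ne_bot.2 c.1.ne_zero))).2 fun j _ => ?_))⟩
  rw [← smul_eq_C_mul]
  exact (degree_smul_le _ _).trans_lt (degree_modByMonic_lt _ c.1)

theorem sm_Hp (h : Br P w y m) (h0 : 0 < n) (hm : ∀ᶠ x in 𝓝 w, (P x).Monic ∧ (P x).natDegree = n)
    {f : ℂ → ℂ → ℂ} (hf : ∀ j, ContDiffAt ℝ ∞ (fun x => f x (y j x)) w) (k : ℕ) :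
    ContDiffAt ℝ ∞ (fun x => (Hp (P x) (f x)).coeff k) w := by
  obtain ⟨e, h1, h2⟩ := br_Hp h h0 hm
  refine (ContDiffAt.sum (s := Finset.univ) fun j _ =>
    (hf j).mul (an_cd ((h1 j).choose_spec.1 k))).congr_of_eventuallyEq ?_
  filter_upwards [h2] with x a
  simp [a.2]

theorem tr_idem {π : ℂ → Mx (Fin n)} (hd : DifferentiableAt ℝ π w) (h : ∀ᶠ x in 𝓝 w, π x * π x = π x)
    {T : Mx (Fin n)} (hT : T * π w = π w * T) : (T * wd 1 π w).trace = 0 := by
  have h1 : wd 1 π w * π w + π w * wd 1 π w = wd 1 π w := by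
    rw [← wd_mul hd hd]
    exact wd_congr h 1
  have h2 : ∀ T : Mx (Fin n), T * π w = π w * T →
      (T * wd 1 π w).trace = 2 * (T * π w * wd 1 π w).trace := fun T hT => by
    conv_lhs => rw [← h1]
    rw [mul_add, Matrix.trace_add, ← mul_assoc, Matrix.trace_mul_comm, ← mul_assoc, ← mul_assoc, hT,
      two_mul]
  have h3 := h2 (T * π w) (by rw [← mul_assoc, ← hT])
  rw [mul_assoc T (π w) (π w), h.self_of_nhds] at h3
  rw [h2 T hT]
  linear_combination -2 * h3

/-- the derivatives of the field `Hm (a x) (F x)` at `w` -/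
structure Gd (a : ℂ → Mx (Fin n)) (F : ℂ → ℂ → ℂ) (α β : ℂ → ℂ) (w : ℂ) : Prop where
  sm : ContDiffAt ℝ ∞ (fun x => Hm (a x) (F x)) w
  db : wb 1 (fun x => Hm (a x) (F x)) w = Hm (a w) (F w) * Hm (a w) β
  dz : ∀ c, (Hm (a w) c * wd 1 (fun x => Hm (a x) (F x)) w).trace =
    ((a w).charpoly.roots.map fun y => c y * (F w y * α y)).sum

theorem gd_triv {a : ℂ → Mx (Fin n)} {F : ℂ → ℂ → ℂ} {α β : ℂ → ℂ}
    (h : ∀ᶠ x in 𝓝 w, ∀ y, F x y = 1) (hα : ∀ y, α y = 0) (hβ : ∀ y, β y = 0) : Gd a F α β w := by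
  have e : (fun x => Hm (a x) (F x)) =ᶠ[𝓝 w] fun _ => 1 := h.mono fun x hx => by
    simp [funext hx, Hm_const]
  refine ⟨contDiffAt_const.congr_of_eventuallyEq e, ?_, fun c => ?_⟩
  · rw [wb_congr e, funext hβ, Hm_const, wb_mhol (differentiableAt_const _)]
    simp
  · rw [wd_congr e, wd_mhol (differentiableAt_const _)]
    simp [hα]

theorem gd_br {a : ℂ → Mx (Fin n)} {F : ℂ → ℂ → ℂ} {α β : ℂ → ℂ} (h : Br P w y m) (h0 : 0 < n)
    (ha : AnalyticAt ℂ a w) (hc : ∀ᶠ x in 𝓝 w, (a x).charpoly = P x)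
    (hF : ∀ j, ContDiffAt ℝ ∞ (fun x => F x (y j x)) w ∧
      wd 1 (fun x => F x (y j x)) w = F w (y j w) * α (y j w) ∧
      wb 1 (fun x => F x (y j x)) w = F w (y j w) * β (y j w)) : Gd a F α β w := by
  obtain ⟨e, h1, h2⟩ := br_Hp h h0 (hc.mono fun x hx => hx ▸ ⟨(a x).charpoly_monic, by simp⟩)
  have h3 := fun j => (h1 j).aeval ha
  have h4 : ∀ᶠ x in 𝓝 w, (∀ j, aeval (a x) (e j x) = Hm (a x) fun r => if r = y j x then 1 else 0) ∧
      ∀ f, Hm (a x) f = ∑ j, f (y j x) • aeval (a x) (e j x) := by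
    filter_upwards [h2, hc] with x b c
    exact ⟨fun j => (Cg.hm (c ▸ b.1 j)).symm, fun f => by
      simp [Hm, c, b.2, Algebra.smul_def]⟩
  have e1 : (fun x => Hm (a x) (F x)) =ᶠ[𝓝 w] fun x => ∑ j, F x (y j x) • aeval (a x) (e j x) :=
    h4.mono fun x hx => hx.2 _
  have d1 := fun j => cd_df (hF j).1
  have d2 := fun j => (h3 j).differentiableAt.restrictScalars ℝ
  refine ⟨(ContDiffAt.sum fun j _ => (hF j).1.smul
    ((h3 j).restrictScalars (𝕜 := ℝ)).contDiffAt).congr_of_eventuallyEq e1, ?_, fun c => ?_⟩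
  · rw [wb_congr e1, wb_sum _ fun j _ => (d1 j).fun_smul (d2 j), Hm_mul, h4.self_of_nhds.2]
    refine Finset.sum_congr rfl fun j _ => ?_
    rw [wb_smul (d1 j) (d2 j), wb_mhol (h3 j).differentiableAt, (hF j).2.2, smul_zero, add_zero]
  · rw [wd_congr e1, wd_sum _ fun j _ => (d1 j).fun_smul (d2 j), ← trace_Hm, ← Hm_mul,
      h4.self_of_nhds.2 fun y => F w y * α y, Finset.mul_sum, Finset.mul_sum, Matrix.trace_sum,
      Matrix.trace_sum]
    refine Finset.sum_congr rfl fun j _ => ?_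
    rw [wd_smul (d1 j) (d2 j), (hF j).2.1, mul_add, Matrix.trace_add, Matrix.mul_smul (Hm (a w) c)
      (F w (y j w)), Matrix.trace_smul, tr_idem (d2 j) (h4.mono fun x hx => by
        simp [hx.1, Hm_mul, ← ite_and]) (by simp only [h4.self_of_nhds.1, Hm_mul, mul_comm]), smul_zero,
      add_zero]

end

end Vale.Agent.P275HM
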