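import Vale.Agent.P275HM.An
import Vale.Agent.P275PG.Defs

/-! Block HERM: loops on the spectral cover as polynomials in the Higgs field. -/

open scoped Topology ContDiff Matrix.Norms.Operator ComplexConjugate
open Set Filter Metric Polynomial

noncomputable section

namespace Vale.Agent.P275HM

open Vale.Agent.P281Z.Hm hiding pl
open Vale.Agent.P275DL Vale.Agent.P275GC Vale.Agent.P275MO Vale.Agent.P275PG
open Vale.Agent.P275GC.At
open Vale.Agent.P275NA (Fm Cy Mn)

variable {C : Type} [TopologicalSpace C] {n : ℕ} {A : At C} {x : C} {P : Fm A ℂ[X]}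
  {i j : Fin A.N} {w : ℂ}

theorem off_nhds (h : w ∈ off A x i) : off A x i ∈ 𝓝 w := by
  have h1 : ∀ᶠ z in 𝓝 w, x ∈ (A.e i).source → z ≠ A.e i x := by
    by_cases hx : x ∈ (A.e i).source
    · exact (eventually_ne_nhds fun e => h.2 (by rw [e, (A.e i).left_inv hx])).mono fun _ a _ => a
    · exact .of_forall fun _ a => (hx a).elim
  filter_upwards [isOpen_ball.mem_nhds h.1, h1] with z a b
  exact ⟨a, fun e => b (e ▸ map_tgt a) (by rw [← e, rinv a])⟩

theorem off_tr (h : w ∈ A.O i j) (hx : (A.e i).symm w ≠ x) : A.tr i j w ∈ off A x j :=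
  ⟨tr_ball h, by rwa [symm_tr h]⟩

/-- the loop is trivial near `w` -/
def Tv (L : Loop A P) (i : Fin A.N) (w : ℂ) : Prop :=
  ∀ᶠ z in 𝓝 w, ∀ y, L.F i z y = 1 ∧ L.a i z y = 0 ∧ L.b i z y = 0

theorem tv_x {L : Loop A P} (hL : Tx x L) (hx : x ∈ (A.e i).source) : Tv L i (A.e i x) := by
  filter_upwards [hL.1 i hx, hL.2.1 i hx, hL.2.2 i hx] with z a b c y
  exact ⟨congrFun a y, congrFun b y, congrFun c y⟩

theorem tv_of {L : Loop A P} (hL : Tx x L) (hw : w ∈ ball (0 : ℂ) A.R) (e : (A.e i).symm w = x) :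
    Tv L i w := by
  have := tv_x hL (e ▸ map_tgt hw : x ∈ (A.e i).source)
  rwa [← e, rinv hw] at this

theorem wb_one {f : ℂ → ℂ} (h : ∀ᶠ z in 𝓝 w, f z = 1) : wb 1 f w = 0 :=
  (wb_congr h 1).trans (wb_hol (differentiableAt_const _) _)

theorem intr (L : Loop A P) (hw : w ∈ ball (0 : ℂ) A.R) {s : ℂ → ℂ} (hs : ContinuousAt s w)
    (hr : ∀ᶠ z in 𝓝 w, (P i z).IsRoot (s z)) :
    wb 1 (fun z => L.F i z (s z)) w = L.F i w (s w) * L.b i w (s w) := by
  rcases L.loc i w hw with h | ⟨M, y, m, h, h1⟩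
  · rw [wb_one (h.mono fun z a => (a _).1), (h.self_of_nhds _).2.2, mul_zero]
  · obtain ⟨k, e⟩ := br_eq h hs hr
    rw [wb_congr (g := fun z => L.F i z (y k z)) (e.mono fun z a => congrArg _ a), e.self_of_nhds]
    exact (h1 k).self_of_nhds.2.2

theorem b_zero (L : Loop A P) (hw : w ∈ ball (0 : ℂ) A.R) (h0 : ∀ᶠ z in 𝓝 w, ∀ y, L.F i z y = 1)
    {r : ℂ} (hr : (P i w).IsRoot r) : L.b i w r = 0 := by
  rcases L.loc i w hw with h | ⟨M, y, m, h, h1⟩
  · exact (h.self_of_nhds _).2.2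
  · obtain ⟨k, rfl⟩ := ((br_root h).self_of_nhds _).1 hr
    have := (h1 k).self_of_nhds.2.2
    rw [wb_one (h0.mono fun z a => a _)] at this
    exact (mul_eq_zero.1 this.symm).resolve_left (L.ne _ _ _)

section
variable (h0 : 0 < n) (hm : ∀ i, ∀ w ∈ off A x i, (P i w).Monic ∧ (P i w).natDegree = n)
  (hs : ∀ i j, ∀ w ∈ A.O i j, (A.e i).symm w ≠ x →
    P i w = (P j (A.tr i j w)).scaleRoots (A.d i j w))

include hs in
theorem b_law (L : Loop A P) (h : w ∈ A.O i j) (hx : (A.e i).symm w ≠ x) {r : ℂ}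
    (hr : (P j (A.tr i j w)).IsRoot r) :
    L.b i w (A.d i j w * r) = conj (A.d i j w) * L.b j (A.tr i j w) r := by
  have rt : ∀ z ∈ A.O i j, (A.e i).symm z ≠ x → ∀ r, (P j (A.tr i j z)).IsRoot r →
      (P i z).IsRoot (A.d i j z * r) := fun z a b r c => by
    rw [hs i j z a b, IsRoot, scaleRoots_eval_mul, c.eq_zero, mul_zero]
  have ht := (an_tr h).continuousAt.tendsto
  rcases L.loc j _ (tr_ball h) with h1 | ⟨M, y, m, h1, h2⟩
  · rw [(h1.self_of_nhds _).2.2, mul_zero]
    refine b_zero L h.1 ?_ (rt w h hx r hr)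
    filter_upwards [O_nhds h, ht.eventually h1] with z a b y
    rw [← mul_div_cancel₀ y (d_ne a), L.tr i j z a, (b _).1]
  · obtain ⟨k, rfl⟩ := ((br_root h1).self_of_nhds _).1 hr
    have h3 := intr L h.1 (i := i) (s := fun z => A.d i j z * y k (A.tr i j z))
      ((an_d h).continuousAt.mul ((h1.1 k).1.continuousAt.comp (an_tr h).continuousAt)) (by
        filter_upwards [O_nhds h, off_nhds ⟨h.1, hx⟩, ht.eventually (br_root h1)] with z a b c
        exact rt z a b.2 _ ((c _).2 ⟨k, rfl⟩))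
    have h4 := (h2 k).self_of_nhds
    rw [wb_congr (g := fun z => L.F j (A.tr i j z) (y k (A.tr i j z)))
      (mem_of_superset (O_nhds h) fun z a => L.tr i j z a _),
      wb_comp (f := fun z => L.F j z (y k z)) (cd_df h4.1) (df_tr h), fderiv_apply_one_eq_deriv,
      ← mul_one (deriv _ _), ← smul_eq_mul, wb_smulv, h4.2.2, L.tr i j w h, smul_eq_mul,
      mul_left_comm] at h3
    exact (mul_left_cancel₀ (L.ne _ _ _) h3).symm

include h0 hm hs in
theorem mem_Twd {L : Loop A P} (hL : Tx x L) :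
    (fun (k : Fin n) i w => (Hp (P i w) (L.b i w)).coeff k) ∈ Twd A n x := by
  have z0 : ∀ {i w}, Tv L i w → ∀ᶠ z in 𝓝 w, Hp (P i z) (L.b i z) = 0 := fun h =>
    h.mono fun z a => by rw [funext fun y => (a y).2.2, Hp_zero]
  refine fun k => ⟨fun i w hw => ContDiffAt.contDiffWithinAt ?_,
    fun i hi => (z0 (tv_x hL hi)).mono fun z a => by simp [a], fun i j w hw => ?_⟩
  · have t : Tv L i w → ContDiffAt ℝ ∞ (fun w => (Hp (P i w) (L.b i w)).coeff k) w := fun h =>
      (contDiffAt_const (c := 0)).congr_of_eventuallyEq ((z0 h).mono fun z a => by simp [a])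
    by_cases hx : (A.e i).symm w = x
    · exact t (tv_of hL hw hx)
    rcases L.loc i w hw with h | ⟨M, y, m, h, h1⟩
    · exact t h
    refine sm_Hp h h0 (mem_of_superset (off_nhds ⟨hw, hx⟩) (hm i)) (fun j => ?_) k
    have h2 := (h1 j).self_of_nhds.1
    refine ((h2.inv (L.ne _ _ _)).mul (cd_wb h2)).congr_of_eventuallyEq ((h1 j).mono fun z a => ?_)
    simp only [Pi.inv_apply]
    rw [a.2.2, inv_mul_cancel_left₀ (L.ne _ _ _)]
  · by_cases hx : (A.e i).symm w = x
    · simp [(z0 (tv_of hL hw.1 hx)).self_of_nhds,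
        (z0 (tv_of hL (tr_ball hw) ((symm_tr hw).trans hx))).self_of_nhds]
    have h1 := (hm j _ (off_tr hw hx)).1
    beta_reduce
    rw [hs i j w hw hx, Hp_scale h1, Hp_congr h1 fun r hr => b_law hs L hw hx hr, Hp_C_mul h1,
      coeff_C_mul]

end

theorem pl_eq {q : Fm A ℂ[X]} {a : Fm A (Mn n)} (h : (q i w).natDegree < n) :
    pl (fun (k : Fin n) i w => (q i w).coeff k) a i w = aeval (a i w) (q i w) := by
  rw [aeval_eq_sum_range' h, pl, Finset.sum_range]

theorem Hm_conj {a b g : Mn n} {d : ℂ} (h : a * g = d • (g * b))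
    (hc : a.charpoly = b.charpoly.scaleRoots d) (f : ℂ → ℂ) :
    Hm a f * g = g * Hm b fun y => f (d * y) := by
  rw [(cg_Hp ((monic_scaleRoots_iff d).2 b.charpoly_monic) f).scale.hm, Hm, hc, aeval_comp]
  refine (show SemiconjBy g _ _ from ?_).eq.symm
  induction Hp (b.charpoly.scaleRoots d) f using Polynomial.induction_on' with
  | add p q h1 h2 => simpa using h1.add_right h2
  | monomial k c =>
    simp only [aeval_monomial]
    refine SemiconjBy.mul_right (Algebra.commutes c g).symm (SemiconjBy.pow_right ?_ k)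
    simp [SemiconjBy, h, ← Algebra.smul_def]

theorem tf_of {X : Mn n} (h : X.trace = 0) : tf X = X := by simp [tf, h]

theorem herm (A : At C) (l : Cy A ℂ) (n : ℕ) : HERM n A l := by
  intro x P h0 hm hs
  refine ⟨fun L => ⟨_, mem_Twd h0 hm hs L.2⟩,
    fun L k i w => (1 + Hp (P i w) fun y => L.1.F i w y - 1).coeff k, fun r h1 h2 z hz hl hx hc => ?_⟩
  subst hx
  have sub : ∀ {w}, w ∈ ball (0 : ℂ) r → w ∈ ball (0 : ℂ) A.R := fun h => ball_subset_ball h2 h
  have of : ∀ {i w}, w ∈ ball (0 : ℂ) r → (A.e i).symm w ≠ z.x → w ∈ off (A.res r h1 h2) z.x i :=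
    fun a b => ⟨a, b⟩
  have dg : ∀ {i w}, w ∈ off A z.x i → ∀ f, (Hp (P i w) f).natDegree < n := fun {i w} h f => by
    by_cases e : Hp (P i w) f = 0
    · rwa [e]
    · exact (hm i w h).2 ▸ natDegree_lt_natDegree e (deg_Hp (hm i w h).1 f)
  have eG : ∀ L : {L : Loop A P // Tx z.x L}, ∀ i, ∀ w ∈ ball (0 : ℂ) r, pl (fun (k : Fin n) i w =>
      (1 + Hp (P i w) fun y => L.1.F i w y - 1).coeff k) z.a i w = Hm (z.a i w) (L.1.F i w) := by
    intro L i w hw
    by_cases hx : (A.e i).symm w = z.x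
    · have := funext fun y => ((tv_of L.2 (sub hw) hx).self_of_nhds y).1
      rw [pl_eq (q := fun i w => 1 + Hp (P i w) fun y => L.1.F i w y - 1)] <;>
        simp [this, Hp_zero, Hm_const, h0]
    · have h3 := hm i w ⟨sub hw, hx⟩
      have := Hp_one h3.1 (h3.2 ▸ h0) (L.1.F i w)
      rw [pl_eq (q := fun i w => 1 + Hp (P i w) fun y => L.1.F i w y - 1), ← this, Hm,
        hc i w (of hw hx)]
      exact this ▸ dg ⟨sub hw, hx⟩ _
  have eQ : ∀ L : {L : Loop A P // Tx z.x L}, ∀ i, ∀ w ∈ ball (0 : ℂ) r, pl (fun (k : Fin n) i w =>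
      (Hp (P i w) (L.1.b i w)).coeff k) z.a i w = Hm (z.a i w) (L.1.b i w) := by
    intro L i w hw
    by_cases hx : (A.e i).symm w = z.x
    · have := funext fun y => ((tv_of L.2 (sub hw) hx).self_of_nhds y).2.2
      rw [pl_eq (q := fun i w => Hp (P i w) (L.1.b i w))] <;> simp [this, Hp_zero, Hm_const, h0]
    · rw [pl_eq (q := fun i w => Hp (P i w) (L.1.b i w)) (dg ⟨sub hw, hx⟩ _), Hm, hc i w (of hw hx)]
  have gd : ∀ L : {L : Loop A P // Tx z.x L}, ∀ i, ∀ w ∈ ball (0 : ℂ) r,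
      Gd (z.a i) (L.1.F i) (L.1.a i w) (L.1.b i w) w := by
    intro L i w hw
    have t : Tv L.1 i w → Gd (z.a i) (L.1.F i) (L.1.a i w) (L.1.b i w) w := fun h =>
      gd_triv (h.mono fun _ a y => (a y).1) (fun y => (h.self_of_nhds y).2.1)
        fun y => (h.self_of_nhds y).2.2
    by_cases hx : (A.e i).symm w = z.x
    · exact t (tv_of L.2 (sub hw) hx)
    rcases L.1.loc i w (sub hw) with h | ⟨M, y, m, h, h3⟩
    · exact t h
    exact gd_br h h0 ((hz.hol i).analyticAt (off_nhds (of hw hx)))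
      (mem_of_superset (off_nhds (of hw hx)) (hc i)) fun j => (h3 j).self_of_nhds
  have ev := fun L i w (hw : w ∈ ball (0 : ℂ) r) =>
    eventuallyEq_of_mem (isOpen_ball.mem_nhds hw) (eG L i)
  have dt : ∀ L : {L : Loop A P // Tx z.x L}, ∀ i, ∀ w ∈ ball (0 : ℂ) r,
      (Hm (z.a i w) (L.1.F i w)).det = 1 := by
    intro L i w hw
    rw [det_Hm]
    by_cases hx : (A.e i).symm w = z.x
    · simp [funext fun y => ((tv_of L.2 (sub hw) hx).self_of_nhds y).1]
    · rw [hc i w (of hw hx), L.1.det i w (sub hw)]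
  have eB : ∀ L : {L : Loop A P // Tx z.x L}, ∀ i, ∀ w ∈ ball (0 : ℂ) r, Bq (fun (k : Fin n) i w =>
      (Hp (P i w) (L.1.b i w)).coeff k) z.a i w = Hm (z.a i w) (L.1.b i w) := by
    intro L i w hw
    have h3 := wb_det ((gd L i w hw).sm.differentiableAt (by simp)) (by simp [dt L i w hw]) 1
    rw [wb_one (mem_of_superset (isOpen_ball.mem_nhds hw) (dt L i)), (gd L i w hw).db, dt L i w hw,
      Matrix.nonsing_inv_mul_cancel_left _ _ (by simp [dt L i w hw]), one_mul] at h3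
    rw [Bq, eQ L i w hw, tf_of h3.symm]
  refine ⟨fun L => ⟨fun i w hw => ((gd L i w hw).sm.congr_of_eventuallyEq
    (ev L i w hw)).contDiffWithinAt, fun i w hw => (eG L i w hw).symm ▸ dt L i w hw, fun i hi => ?_,
    fun i j w hw => ?_, fun i w hw => ?_, fun i w hw => ?_⟩, fun L L' => ?_⟩
  · filter_upwards [ev L i _ hi.2, tv_x (A := A) L.2 hi.1] with w a b
    exact a.trans (by simp [funext fun y => (b y).1, Hm_const])
  · obtain ⟨a, b, c⟩ := res_O.1 hw
    refine (congrArg (· * _) (eG L i w b)).trans (.trans ?_ (congrArg (_ * ·) (eG L j _ c)).symm)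
    by_cases hx : (A.e i).symm w = z.x
    · simp [funext fun y => ((tv_of L.2 a.1 hx).self_of_nhds y).1, Hm_const, funext fun y =>
        ((tv_of L.2 (tr_ball a) ((symm_tr a).trans hx)).self_of_nhds y).1]
    have o2 : A.tr i j w ∈ off (A.res r h1 h2) z.x j := of c (off_tr a hx).2
    obtain ⟨s, h3⟩ := hz.law i j w hw hx
    rw [hl, zero_smul, add_zero] at h3
    have h4 := congrArg (fun X => (z.g j i (A.tr i j w) * X).trace) h3
    have h5 : z.g j i (A.tr i j w) * z.g i j w = 1 := hz.cc.inv' hw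
    have h6 : z.g i j w * z.g j i (A.tr i j w) = 1 := hz.cc.inv hw
    have h7 : (z.a j ((A.res r h1 h2).tr i j w)).trace = 0 := hz.tr j _ o2
    simp only [mul_add, Matrix.mul_smul, ← mul_assoc, h5, one_mul, Matrix.trace_add,
      Matrix.trace_smul, h7, Matrix.trace_one, Fintype.card_fin] at h4
    rw [Matrix.trace_mul_cycle, h6, one_mul, hz.tr i w (of b hx)] at h4
    obtain rfl : s = 0 := by simpa [h0.ne'] using h4
    rw [zero_smul, add_zero] at h3
    rw [Hm_conj h3 ((hc i w (of b hx)).trans ((hs i j w a hx).trans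
      (congrArg (scaleRoots · (A.d i j w)) (hc j _ o2).symm)))]
    exact congrArg (fun f => _ * Hm _ f) (funext (L.1.tr i j w a))
  · refine (congrArg (· * _) (eG L i w hw)).trans (.trans ?_ (congrArg (_ * ·) (eG L i w hw)).symm)
    simpa [Hm] using congrArg (aeval (z.a i w)) (mul_comm (Hp (z.a i w).charpoly (L.1.F i w)) X)
  · exact (wb_congr (ev L i w hw) 1).trans ((gd L i w hw).db.trans
      (congrArg₂ (· * ·) (eG L i w hw) (eB L i w hw)).symm)
  · unfold pairing Loop.Q At.int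
    refine Finset.sum_congr rfl fun i _ => congrArg _ (funext fun w => ?_)
    by_cases hw : ‖w‖ < 1
    swap
    · simp [χ_zero (not_lt.1 hw)]
    replace hw : w ∈ ball (0 : ℂ) r := mem_ball_zero_iff.2 (hw.trans h1)
    have key : ∀ L : {L : Loop A P // Tx z.x L}, ∀ c, (Hm (z.a i w) c * ((Hm (z.a i w) (L.1.F i w))⁻¹ *
        wd 1 (fun w => Hm (z.a i w) (L.1.F i w)) w)).trace =
        ((P i w).roots.map fun y => c y * L.1.a i w y).sum := by
      intro L c
      rw [Hm_inv (L.1.ne i w), ← mul_assoc, Hm_mul, (gd L i w hw).dz]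
      by_cases hx : (A.e i).symm w = z.x
      · simp [funext fun y => ((tv_of L.2 (sub hw) hx).self_of_nhds y).2.1]
      · simp only [hc i w (of hw hx), mul_assoc, inv_mul_cancel_left₀ (L.1.ne i w _)]
    congr 1
    dsimp only
    rw [eG L i w hw, eG L' i w hw, eB L i w hw, eB L' i w hw, P275NA.dz, P275NA.dz,
      wd_congr (ev L i w hw), wd_congr (ev L' i w hw), Matrix.trace_mul_comm, key, key,
      ← Multiset.sum_map_sub]
    simp only [mul_comm]

end Vale.Agent.P275HM
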